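import Vale.Agent.P011UQ.Tz
import Vale.Agent.P011UB.Main

/-!
Triality is invariant and not inner.
-/

set_option autoImplicit false
set_option linter.all false

namespace Vale.Agent.P011UQ2

open Vale.Agent.P011L Vale.Agent.P183CH Vale.Agent.P011U Vale.Agent.P011UQ

theorem trn : TRN := by
  rintro k K _ _ _ _ _ D - T ⟨σ, g, c, π, h, hπ⟩
  refine ⟨σ, fun ⟨s, hs, e⟩ => hπ ?_⟩
  have h1 := Std.comp (ψ := (T.a σ).toMonoidHom) (σ := (σ : K →+* K)) h h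
  have e1 : ∀ x, T.a σ (T.a σ x) =
      ⟨s, hs⟩ * fm D ((σ * σ : K ≃ₐ[k] K) : K →+* K) x * (⟨s, hs⟩ : D.grp K)⁻¹ := fun x => by
    rw [← MulAut.mul_apply, ← map_mul, eq_mul_inv_iff_mul_eq]
    exact Subtype.ext (Units.ext (e x))
  have h2 : Std (GG D K) (fun x => T.a σ (T.a σ x)) (fun x => σ (σ x)) ⟨s, hs⟩ 1 1 :=
    ⟨fun _ _ => rfl, fun i u => ⟨by simp [e1, fm_x], by simp [e1, fm_x]⟩⟩
  exact (std_uniq GG_ok (Chev.R_ok D) h2 h1 (by simp)).1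

/-- The star actions of isomorphic forms are conjugate. -/
theorem eqv_std {k K : Type} [Field k] [Field K] [Infinite K] [Algebra k K] {D : Chev} (hD : SC D)
    {T T' : Tw k (D.grp K)} (e : Eqv T T') : ∃ ρ : Equiv.Perm (Fin D.R.r), Dg D.R ρ ∧
      ∀ σ g c π, Std (GG D K) (T'.a σ) σ g c π →
        ∃ g' c', Std (GG D K) (T.a σ) σ g' c' (ρ⁻¹ * π * ρ) := by
  obtain ⟨ψ, p1, p2, e⟩ := e
  obtain ⟨g1, c1, π1, h1⟩ := P011UB.aut D hD K ψ p1 p2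
  obtain ⟨g2, c2, π2, h2⟩ := P011UB.aut D hD K ψ.symm p2 p1
  have h3 := Std.comp (ψ := ψ.symm.toMonoidHom) (σ := RingHom.id K) h2 h1
  have h4 : Std (GG D K) (fun x => ψ.symm (ψ x)) (fun x => x) 1 1 1 :=
    ⟨fun _ _ => rfl, fun i u => ⟨by simp, by simp⟩⟩
  obtain rfl := eq_inv_of_mul_eq_one_left (std_uniq GG_ok (Chev.R_ok D) h4 h3 rfl).1
  refine ⟨π1, h1.1, fun σ g c π h => ?_⟩
  have h5 := Std.comp (ψ := ψ.symm.toMonoidHom) (σ := RingHom.id K) h2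
    (Std.comp (ψ := (T'.a σ).toMonoidHom) (σ := (σ : K →+* K)) h h1)
  have e1 : (fun x => ψ.symm.toMonoidHom ((T'.a σ).toMonoidHom (ψ x))) = T.a σ :=
    funext fun x => (congrArg ψ.symm (e σ x)).trans (ψ.symm_apply_apply _)
  rw [e1, ← mul_assoc] at h5
  exact ⟨_, _, h5⟩

theorem eqt : EQT := by
  rintro k K _ _ _ _ _ D hD T T' e ⟨σ, g, c, π, h, hπ⟩
  have := Infinite.of_injective _ (algebraMap k K).injective
  obtain ⟨ρ, -, hρ⟩ := eqv_std hD e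
  obtain ⟨g', c', h'⟩ := hρ σ g c π h
  refine ⟨σ, g', c', _, h', fun e => hπ ?_⟩
  calc π * π = ρ * (ρ⁻¹ * π * ρ * (ρ⁻¹ * π * ρ)) * ρ⁻¹ := by group
    _ = 1 := by rw [e, mul_one, mul_inv_cancel]

end Vale.Agent.P011UQ2
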